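import Vale.Agent.P042.H685.H2Thm

/-!
# P042, Theorem H, atoms counted over the free sites only

`thmH_I`: Theorem H where the total number of atoms is taken over the sites of `I` only, so that it
applies to laws with extra sites of any size outside `I` (for instance `Z / m`).
-/

set_option autoImplicit false
set_option linter.unusedSectionVars false
set_option linter.unusedDecidableInType false

namespace Vale.Agent.P042.H248

open Finset Vale.Agent.P042.H779 Vale.Agent.P042.H779.Ab Vale.Agent.P042.H685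

variable {ι : Type*} [Fintype ι] [DecidableEq ι] {V : ι → Type*} [∀ i, Fintype (V i)]
  [∀ i, DecidableEq (V i)] {w : ∀ i, V i → ℝ} {g : Finset ι → (∀ i, V i) → ℝ} {m : ℝ}

/-- a point of the product over `I`, completed by `z` -/
def gl (I : Finset ι) (z : ∀ i, V i) (x : ∀ k : {i // i ∈ I}, V k.1) : ∀ i, V i :=
  fun i => if h : i ∈ I then x ⟨i, h⟩ else z i

/-- the inclusion of the sites -/
abbrev em (I : Finset ι) : {i // i ∈ I} ↪ ι := Function.Embedding.subtype fun i => i ∈ I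

lemma gl_mem {I : Finset ι} {i : ι} (h : i ∈ I) (z : ∀ i, V i) (x : ∀ k : {i // i ∈ I}, V k.1) :
    gl I z x i = x ⟨i, h⟩ := dif_pos h

lemma gl_val {I : Finset ι} (z : ∀ i, V i) (x : ∀ k : {i // i ∈ I}, V k.1) (k : {i // i ∈ I}) :
    gl I z x k.1 = x k := dif_pos k.2

lemma gl_notMem {I : Finset ι} {i : ι} (h : i ∉ I) (z : ∀ i, V i)
    (x : ∀ k : {i // i ∈ I}, V k.1) : gl I z x i = z i := dif_neg h

lemma map_sub {I : Finset ι} (C : Finset {i // i ∈ I}) : C.map (em I) ⊆ I := by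
  intro i hi
  obtain ⟨k, _, rfl⟩ := mem_map.mp hi
  exact k.2

lemma mem_map_em {I : Finset ι} (C : Finset {i // i ∈ I}) (k : {i // i ∈ I}) :
    k.1 ∈ C.map (em I) ↔ k ∈ C := by
  constructor
  · intro h
    obtain ⟨k', hk', he⟩ := mem_map.mp h
    have : k' = k := Subtype.ext he
    rwa [← this]
  · intro h
    exact mem_map.mpr ⟨k, h, rfl⟩

lemma gl_update {I : Finset ι} (z : ∀ i, V i) (x : ∀ k : {i // i ∈ I}, V k.1) (k : {i // i ∈ I})
    (a : V k.1) : gl I z (Function.update x k a) = Function.update (gl I z x) k.1 a := by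
  funext i
  by_cases hi : i = k.1
  · subst hi
    rw [gl_val, Function.update_self, Function.update_self]
  · rw [Function.update_of_ne hi]
    by_cases hI : i ∈ I
    · rw [gl_mem hI, gl_mem hI, Function.update_of_ne]
      intro h
      exact hi (congrArg Subtype.val h)
    · rw [gl_notMem hI, gl_notMem hI]

lemma gl_ov {I : Finset ι} (z : ∀ i, V i) (S : Finset {i // i ∈ I})
    (u x : ∀ k : {i // i ∈ I}, V k.1) :
    gl I z (ov S u x) = ov (S.map (em I)) (gl I z u) (gl I z x) := by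
  funext i
  by_cases hI : i ∈ I
  · rw [gl_mem hI]
    by_cases hS : (⟨i, hI⟩ : {i // i ∈ I}) ∈ S
    · rw [ov_mem hS, ov_mem ((mem_map_em S ⟨i, hI⟩).mpr hS), gl_mem hI]
    · rw [ov_notMem hS, ov_notMem (fun h => hS ((mem_map_em S ⟨i, hI⟩).mp h)), gl_mem hI]
  · rw [gl_notMem hI, ov_notMem (fun h => hI (map_sub S h)), gl_notMem hI]

/-- the family on the sites of `I` -/
def gs (I : Finset ι) (z : ∀ i, V i) (g : Finset ι → (∀ i, V i) → ℝ)
    (C : Finset {i // i ∈ I}) (x : ∀ k : {i // i ∈ I}, V k.1) : ℝ :=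
  g (C.map (em I)) (gl I z x)

lemma gs_pfam (F : PFam w g m) (I : Finset ι) (z : ∀ i, V i) :
    PFam (fun k : {i // i ∈ I} => w k.1) (gs I z g) m where
  w_nonneg := fun k => F.w_nonneg k.1
  w_sum := fun k => F.w_sum k.1
  g_nonneg := fun C x => F.g_nonneg _ _
  g_empty := fun x => by unfold gs; rw [map_empty]; exact F.g_empty _
  loc := by
    intro C x y hxy
    unfold gs
    refine F.loc _ _ _ fun i hi => ?_
    obtain ⟨k, hk, rfl⟩ := mem_map.mp hi
    exact (gl_val z x k).trans ((hxy k hk).trans (gl_val z y k).symm)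
  avg := by
    intro C k hk x
    have h1 : k.1 ∉ C.map (em I) := fun h => hk ((mem_map_em C k).mp h)
    have h2 := F.avg (C.map (em I)) k.1 h1 (gl I z x)
    unfold gs
    rw [← h2]
    refine sum_congr rfl fun a _ => ?_
    rw [map_insert, gl_update]
    rfl

lemma hh_gs (I : Finset ι) (z : ∀ i, V i) (g : Finset ι → (∀ i, V i) → ℝ)
    (B : Finset {i // i ∈ I}) (x : ∀ k : {i // i ∈ I}, V k.1) :
    hh (gs I z g) B x = hh g (B.map (em I)) (gl I z x) := by
  unfold hh gs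
  rw [card_map]
  symm
  refine sum_bij' (fun C _ => C.subtype fun i => i ∈ I) (fun C _ => C.map (em I)) ?_ ?_ ?_ ?_ ?_
  · intro C hC
    rw [mem_powerset] at hC ⊢
    intro k hk
    rw [mem_subtype] at hk
    exact (mem_map_em B k).mp (hC hk)
  · intro C hC
    rw [mem_powerset] at hC ⊢
    exact map_subset_map.mpr hC
  · intro C hC
    rw [mem_powerset] at hC
    refine subtype_map_of_mem fun i hi => map_sub B (hC hi)
  · intro C hC
    exact Finset.map_injective (em I) (subtype_map_of_mem fun i hi => map_sub C hi)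
  · intro C hC
    rw [mem_powerset] at hC
    have h1 : (C.subtype fun i => i ∈ I).map (em I) = C :=
      subtype_map_of_mem fun i hi => map_sub B (hC hi)
    have h2 : (C.subtype fun i => i ∈ I).card = C.card := by
      conv_rhs => rw [← h1]
      rw [card_map]
    rw [h1, h2]

/-- summation over the remaining sites -/
lemma sum_sub {E : Type*} [AddCommGroup E] [Module ℝ E] (hw1 : ∀ i, ∑ a, w i a = 1)
    (I : Finset ι) (z : ∀ i, V i) (F : (∀ i, V i) → E)
    (hF : ∀ x y : ∀ i, V i, (∀ i ∈ I, x i = y i) → F x = F y) :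
    ∑ x, Ab.pw w x • F x
      = ∑ x : ∀ k : {i // i ∈ I}, V k.1, Ab.pw (fun k : {i // i ∈ I} => w k.1) x • F (gl I z x) := by
  classical
  have h1 : ∀ x : ∀ i, V i, Ab.pw w x • F x
      = (fun p : (∀ k : {i // i ∈ I}, V k.1) × (∀ k : {i // ¬ i ∈ I}, V k.1) =>
        (Ab.pw (fun k : {i // i ∈ I} => w k.1) p.1 * ∏ k : {i // ¬ i ∈ I}, w k.1 (p.2 k))
          • F (gl I z p.1)) (Equiv.piEquivPiSubtypeProd (fun i => i ∈ I) V x) := by
    intro x
    have e1 : Ab.pw w x = (∏ k : {i // i ∈ I}, w k.1 (x k.1)) * ∏ k : {i // ¬ i ∈ I}, w k.1 (x k.1) := by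
      unfold Ab.pw
      convert (Fintype.prod_subtype_mul_prod_subtype (fun i => i ∈ I) fun i => w i (x i)).symm
    have e2 : F x = F (gl I z fun k => x k.1) := hF _ _ fun i hi => by rw [gl_mem hi]
    simp only [Equiv.piEquivPiSubtypeProd_apply]
    rw [e1, e2]
    rfl
  rw [Fintype.sum_congr _ _ h1,
    Equiv.sum_comp (Equiv.piEquivPiSubtypeProd (fun i => i ∈ I) V)
      (fun p : (∀ k : {i // i ∈ I}, V k.1) × (∀ k : {i // ¬ i ∈ I}, V k.1) =>
        (Ab.pw (fun k : {i // i ∈ I} => w k.1) p.1 * ∏ k : {i // ¬ i ∈ I}, w k.1 (p.2 k))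
          • F (gl I z p.1)), Fintype.sum_prod_type]
  refine sum_congr rfl fun a _ => ?_
  have h2 : ∑ b : ∀ k : {i // ¬ i ∈ I}, V k.1, ∏ k : {i // ¬ i ∈ I}, w k.1 (b k) = 1 := by
    rw [← Fintype.piFinset_univ,
      ← Finset.prod_univ_sum (fun _ => univ) fun (k : {i // ¬ i ∈ I}) (a : V k.1) => w k.1 a]
    simp [hw1]
  simp only
  rw [← sum_smul, ← mul_sum, h2, mul_one]

/-- the family of finsets of `I` of a given size -/
lemma sum_map_card (I : Finset ι) (e : ℕ) (f : Finset ι → ℝ) :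
    ∑ B : Finset {i // i ∈ I} with B.card = e, f (B.map (em I)) = ∑ B ∈ powersetCard e I, f B := by
  refine sum_bij' (fun B _ => B.map (em I)) (fun B _ => B.subtype fun i => i ∈ I) ?_ ?_ ?_ ?_ ?_
  · intro B hB
    rw [mem_powersetCard]
    exact ⟨map_sub B, by rw [card_map]; exact (mem_filter.mp hB).2⟩
  · intro B hB
    rw [mem_powersetCard] at hB
    rw [mem_filter]
    refine ⟨mem_univ _, ?_⟩
    rw [← hB.2, ← card_map (em I), subtype_map_of_mem fun i hi => hB.1 hi]
  · intro B _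
    exact Finset.map_injective (em I) (subtype_map_of_mem fun i hi => map_sub B hi)
  · intro B hB
    exact subtype_map_of_mem fun i hi => (mem_powersetCard.mp hB).1 hi
  · intro B _
    rfl

lemma WW_gs (F : PFam w g m) (I : Finset ι) (z : ∀ i, V i) (e : ℕ) :
    WW (fun k : {i // i ∈ I} => w k.1) (gs I z g) e = WW w (gr g I) e := by
  have h1 : WW w (gr g I) e = ∑ B ∈ powersetCard e I, ∑ x, Ab.pw w x * hh g B x ^ 2 := by
    have h1 : ∑ U ∈ powersetCard e I, nr w (hh (gr g I)) U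
        = ∑ U with U.card = e, nr w (hh (gr g I)) U := by
      refine sum_subset (fun U hU => ?_) fun U hU hU' => ?_
      · rw [mem_powersetCard] at hU
        rw [mem_filter]
        exact ⟨mem_univ _, hU.2⟩
      · rw [mem_filter] at hU
        have hUI : ¬ U ⊆ I := fun h => hU' (mem_powersetCard.mpr ⟨h, hU.2⟩)
        unfold nr
        refine sum_eq_zero fun x _ => ?_
        rw [hh_gr, if_neg hUI]
        simp
    unfold WW
    rw [← h1]
    refine sum_congr rfl fun U hU => ?_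
    rw [mem_powersetCard] at hU
    unfold nr
    refine sum_congr rfl fun x _ => ?_
    rw [hh_gr, if_pos hU.1]
  rw [h1, ← sum_map_card]
  unfold WW nr
  refine sum_congr rfl fun B _ => ?_
  have h2 := sum_sub F.w_sum I z (fun x => hh g (B.map (em I)) x ^ 2) (by
    intro x y hxy
    rw [hh_loc F.loc (B.map (em I)) x y fun i hi => hxy i (map_sub B hi)])
  simp only [smul_eq_mul] at h2
  rw [h2]
  refine sum_congr rfl fun x _ => ?_
  rw [hh_gs]

lemma gr_univ {κ : Type*} [Fintype κ] [DecidableEq κ] {U : κ → Type*}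
    (g : Finset κ → (∀ i, U i) → ℝ) : gr g univ = g := by
  funext C x
  unfold gr
  rw [inter_univ]

lemma gp_gs (I : Finset ι) (z : ∀ i, V i) (g : Finset ι → (∀ i, V i) → ℝ)
    (S : Finset {i // i ∈ I}) (u : ∀ k : {i // i ∈ I}, V k.1) :
    gp (gs I z g) S u = gs I z (gp g (S.map (em I)) (gl I z u)) := by
  funext C x
  unfold gp gs
  rw [map_union, gl_ov]

/-- pins inside `I` commute with the restriction -/
lemma gr_gp_gr (g : Finset ι → (∀ i, V i) → ℝ) {S I : Finset ι} (hS : S ⊆ I) (u : ∀ i, V i) :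
    gr (gp g S u) I = gp (gr g I) S u := by
  funext C x
  show g (S ∪ C ∩ I) (ov S u x) = g ((S ∪ C) ∩ I) (ov S u x)
  rw [union_inter_distrib_right, inter_eq_left.mpr hS]

/-- **THEOREM H, atoms of the free sites only.** -/
theorem thmH_I (F : PFam w g m)
    (I : Finset ι) {e q : ℕ} (he : 1 ≤ e) (hq : Even q) (hI : 1 ≤ I.card)
    {P R R0 K G C1 : ℝ} (hP : 1 ≤ P) (hR0 : 1 ≤ R0) (hR : 2 * R0 ≤ R) (hG : 1 ≤ G) (hC : 1 ≤ C1)
    (hK : 0 < K) (hmK : m ≤ K) (heG : (e : ℝ) ≤ G)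
    (hlo : Real.log (Fintype.card (Σ k : {i // i ∈ I}, V k.1)) ≤ G)
    (hlk : Real.log (3 * I.card) ≤ G)
    (hOm : (Fintype.card (Σ k : {i // i ∈ I}, V k.1) : ℝ) ≤ P ^ (2 * C1))
    (hGP : 16 * G ^ 2 ≤ P ^ (2 / 3 : ℝ))
    (hql : P ^ (2 / 3 : ℝ) ≤ 2 * (q : ℝ)) (hqu : 2 * (q : ℝ) ≤ 8 * P ^ (2 / 3 : ℝ))
    (LI : ∀ l ≤ q * e, WW w (gr g I) l ≤ K ^ 2 * ((R * P) ^ l / (l.factorial : ℝ)))
    (PH : ∀ S ⊆ I, ∀ d, S.card + d ≤ e → ∀ u : ∀ i, V i,
      WW w (gp (gr g I) S u) d ≤ (K * R0 ^ S.card) ^ 2 * (R * P) ^ d)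
    (INJ : ∀ S ⊆ I, S.card ≤ e → ∀ u : ∀ i, V i, ∀ f : ∀ i, V i → ℂ, (∀ i, i ∉ I → f i = 0) →
      ∑ i, ∑ b, w i b * ‖f i b‖ ^ 2 ≤ 1 →
      ‖∑ E ∈ powersetCard (e - S.card) (I \ S), ∑ x, (Ab.pw w x : ℂ) *
        ((hh g (S ∪ E) (ov S u x) : ℂ) * ∏ i ∈ E, f i (x i))‖ ≤ K * R ^ e) :
    WW w (gr g I) e ≤ K ^ 2 * (1440 * G * R ^ 2 * P ^ (1 - 1 / (12 * C1))) ^ e := by
  classical
  -- a base point
  have hne : ∀ i, Nonempty (V i) := fun i => by
    by_contra hc
    rw [not_nonempty_iff] at hc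
    have := F.w_sum i
    simp at this
  obtain ⟨z⟩ : Nonempty (∀ i, V i) := inferInstance
  have FI := F.restr I
  rw [← WW_gs F I z e]
  have hcardI : (univ : Finset {i // i ∈ I}).card = I.card := by
    rw [card_univ, Fintype.card_coe]
  have hmain := H121.thmH (gs_pfam F I z) (univ : Finset {i // i ∈ I}) he hq
    (by rw [hcardI]; exact hI) hP hR0 hR hG hC hK hmK heG hlo (by rw [hcardI]; exact hlk) hOm hGP
    hql hqu ?_ ?_ ?_
  · rw [gr_univ] at hmain
    exact hmain
  · intro l hl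
    rw [gr_univ, WW_gs F I z l]
    exact LI l hl
  · intro S _ d hSd u
    rw [gr_univ, gp_gs, WW_gs (F.pin (S.map (em I)) (gl I z u)) I z d,
      gr_gp_gr g (map_sub S) (gl I z u)]
    have h := PH (S.map (em I)) (map_sub S) d (by rw [card_map]; exact hSd) (gl I z u)
    rwa [card_map] at h
  · intro S _ hSe u f _ hf
    obtain ⟨f', hf'⟩ : ∃ f' : ∀ i, V i → ℂ, f' = fun i => if h : i ∈ I then f ⟨i, h⟩ else 0 :=
      ⟨_, rfl⟩
    have hf'1 : ∀ k : {i // i ∈ I}, f' k.1 = f k := fun k => by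
      rw [hf']; exact dif_pos k.2
    have hf'0 : ∀ i, i ∉ I → f' i = 0 := fun i hi => by rw [hf']; exact dif_neg hi
    have hf2 : ∑ i, ∑ b, w i b * ‖f' i b‖ ^ 2 ≤ 1 := by
      have h1 : ∑ i, ∑ b, w i b * ‖f' i b‖ ^ 2 = ∑ i ∈ I, ∑ b, w i b * ‖f' i b‖ ^ 2 := by
        symm
        refine sum_subset (subset_univ _) fun i _ hi => ?_
        rw [hf'0 i hi]
        simp
      rw [h1, ← sum_coe_sort I fun i => ∑ b, w i b * ‖f' i b‖ ^ 2]
      refine le_trans (le_of_eq ?_) hf
      refine sum_congr rfl fun k _ => ?_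
      rw [hf'1 k]
    have h := INJ (S.map (em I)) (map_sub S) (by rw [card_map]; exact hSe) (gl I z u) f' hf'0 hf2
    refine le_trans (le_of_eq ?_) h
    congr 1
    rw [card_map]
    symm
    refine sum_bij' (fun E _ => E.subtype fun i => i ∈ I) (fun E _ => E.map (em I))
      ?_ ?_ ?_ ?_ ?_
    · intro E hE
      rw [mem_powersetCard] at hE ⊢
      have hEI : ∀ i ∈ E, i ∈ I := fun i hi => (mem_sdiff.mp (hE.1 hi)).1
      refine ⟨?_, ?_⟩
      · intro k hk
        rw [mem_subtype] at hk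
        refine mem_sdiff.mpr ⟨mem_univ _, fun hkS => ?_⟩
        exact (mem_sdiff.mp (hE.1 hk)).2 ((mem_map_em S k).mpr hkS)
      · rw [← hE.2, ← card_map (em I), subtype_map_of_mem hEI]
    · intro E hE
      rw [mem_powersetCard] at hE ⊢
      refine ⟨?_, by rw [card_map]; exact hE.2⟩
      intro i hi
      obtain ⟨k, hk, rfl⟩ := mem_map.mp hi
      refine mem_sdiff.mpr ⟨k.2, fun h => ?_⟩
      exact (mem_sdiff.mp (hE.1 hk)).2 ((mem_map_em S k).mp h)
    · intro E hE
      have hEI : ∀ i ∈ E, i ∈ I := fun i hi =>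
        (mem_sdiff.mp ((mem_powersetCard.mp hE).1 hi)).1
      exact subtype_map_of_mem hEI
    · intro E _
      exact Finset.map_injective (em I) (subtype_map_of_mem fun i hi => map_sub E hi)
    · intro E hE
      have hEI : ∀ i ∈ E, i ∈ I := fun i hi =>
        (mem_sdiff.mp ((mem_powersetCard.mp hE).1 hi)).1
      have hEm : (E.subtype fun i => i ∈ I).map (em I) = E := subtype_map_of_mem hEI
      have h3 := sum_sub F.w_sum I z (fun x => (hh g (S.map (em I) ∪ E)
        (ov (S.map (em I)) (gl I z u) x) : ℂ) * ∏ i ∈ E, f' i (x i)) (by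
          intro x y hxy
          congr 1
          · congr 1
            refine hh_loc F.loc _ _ _ fun i hi => ?_
            by_cases hiS : i ∈ S.map (em I)
            · rw [ov_mem hiS, ov_mem hiS]
            · rw [ov_notMem hiS, ov_notMem hiS]
              rcases mem_union.mp hi with h | h
              · exact absurd h hiS
              · exact hxy i (hEI i h)
          · refine prod_congr rfl fun i hi => ?_
            rw [hxy i (hEI i hi)])
      simp only [Complex.real_smul] at h3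
      rw [h3]
      refine sum_congr rfl fun x _ => ?_
      rw [hh_gs, map_union, hEm, gl_ov]
      congr 2
      conv_lhs => rw [← hEm]
      rw [prod_map]
      refine prod_congr rfl fun k _ => ?_
      show f' k.1 (gl I z x k.1) = f k (x k)
      rw [gl_val, hf'1 k]

section energy

variable {u p : ∀ i, V i → ℝ} {μ : (∀ i, V i) → ℝ}
  {rt : ι → ℝ} {a : ℝ} {c : ι → ℝ} {d0 : ℕ} {δ wm : ℝ}
  {I : Finset ι} {l0 cm rm ξ K1 : ℝ} {dd : ℕ} {D : ℝ}

/-- **Theorem H for the pinned law, atoms of the free sites only.**  `A`: the pinned sites (any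
sites, of any size); `I`: the free high sites. -/
theorem energyI (H : H2Hyp u p μ rt a c d0 δ wm I l0 cm rm ξ K1 dd D) {A : Finset ι}
    (hAI : Disjoint A I) (x : ∀ i, V i) {s1 d l : ℕ} (hl : 1 ≤ l)
    (hln : Real.log (4 * I.card) ≤ l) (hd : 4 * s1 * l ≤ d) (hdd : A.card + d ≤ dd)
    (hd0 : A.card + s1 ≤ d0) {D1 : ℝ} (hD1 : D + A.card * Real.log (1 / wm) ≤ D1)
    {e q : ℕ} (he : 1 ≤ e) (hq : Even q) (hqe : q * e ≤ s1)
    {P R G C1 : ℝ} (hP : 1 ≤ P) (hR : 2 * (Real.exp cm * rm / ξ) ≤ R)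
    (hR' : 4 * Real.exp cm / l0 ≤ R)
    (hQ : 2 * (ξ⁻¹ * H956.KL d D1 (Real.exp cm * rm) + K1) ≤ R * P)
    (hG : 1 ≤ G) (hC : 1 ≤ C1) (heG : (e : ℝ) ≤ G)
    (hlo : Real.log (Fintype.card (Σ k : {i // i ∈ I}, V k.1)) ≤ G)
    (hlk : Real.log (3 * I.card) ≤ G)
    (hOm : (Fintype.card (Σ k : {i // i ∈ I}, V k.1) : ℝ) ≤ P ^ (2 * C1))
    (hGP : 16 * G ^ 2 ≤ P ^ (2 / 3 : ℝ))
    (hql : P ^ (2 / 3 : ℝ) ≤ 2 * (q : ℝ)) (hqu : 2 * (q : ℝ) ≤ 8 * P ^ (2 / 3 : ℝ)) :
    WW p (gr (gp (gdw p μ) A x) I) e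
      ≤ Kp a c A ^ 2 * (1440 * G * R ^ 2 * P ^ (1 - 1 / (12 * C1))) ^ e := by
  have hξ := H.xi_pos
  have hrm := H.rm_one
  have hcm := Real.one_le_exp H.cm_nonneg
  have hR0 : 1 ≤ Real.exp cm * rm / ξ := by
    rw [le_div_iff₀ hξ, one_mul]
    have := H.xi_one
    nlinarith
  have hR1 : 1 ≤ R := by linarith
  have hP23 : 0 < P ^ (2 / 3 : ℝ) := Real.rpow_pos_of_pos (by linarith) _
  have hq1 : 1 ≤ q := by
    have : (0 : ℝ) < q := by linarith
    exact_mod_cast this
  have hes : e ≤ s1 := by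
    calc e = 1 * e := (one_mul e).symm
      _ ≤ q * e := Nat.mul_le_mul_right e hq1
      _ ≤ s1 := hqe
  rcases Nat.eq_zero_or_pos I.card with hI | hI
  · -- no free sites
    have hI' : I = ∅ := card_eq_zero.mp hI
    have h0 : WW p (gr (gp (gdw p μ) A x) I) e = 0 := by
      unfold WW nr
      refine sum_eq_zero fun B hB => sum_eq_zero fun y _ => ?_
      have hB' := (mem_filter.mp hB).2
      have : ¬ B ⊆ I := fun h => by
        rw [hI', subset_empty] at h
        rw [h, card_empty] at hB'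
        omega
      rw [hh_gr, if_neg this]
      ring
    rw [h0]
    have := Real.rpow_nonneg (by linarith : (0 : ℝ) ≤ P) (1 - 1 / (12 * C1))
    positivity
  · refine thmH_I ((pfam_ref H.data.ref).pin A x) I he hq hI hP hR0 hR hG hC (Kp_pos A) ?_ heG
      hlo hlk hOm hGP hql hqu ?_ ?_ ?_
    · exact (gdw_le_cost' H.data (by omega) x).trans (exp_le_Kp A)
    · intro l' hl'
      exact H.LI hAI x hl hln hd hdd hd0 hD1 hQ (hl'.trans hqe)
    · intro S hS d' hSd v
      exact H.PH hAI x hl hln hd hdd hd0 hD1 hQ hS (by omega) v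
    · intro S hS hSe v f _ hf
      exact H.INJ x (by omega) hR' hS hSe v f hf

end energy

end Vale.Agent.P042.H248
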